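import Vale.Agent.P221.H240.Ring

/-!
# P221, Q1: the Hahn-Wilson conjecture after smashing with a finite spectrum of type `n`, and for
modules over ring spectra of height exactly `n`
-/

open CategoryTheory Limits Pretriangulated MonoidalCategory

universe v u

namespace Vale.Agent.Results.P221.TorsionPart

open Vale.Agent.P221 Vale.Agent.P261

/-- **The torsion part of the Hahn-Wilson conjecture, at every prime and every height.** -/
theorem result {C : Type u} [Category.{v} C] [Preadditive C] [HasZeroObject C] [HasShift C ℤ]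
    [∀ n : ℤ, (shiftFunctor C n).Additive] [Pretriangulated C] [IsTriangulated C]
    [MonoidalCategory C] [BraidedCategory C] [TensorTriangulated C]
    (p : ℕ) [Fact p.Prime] (n : ℕ) (hn : 1 ≤ n)
    -- the stable homotopy category is `p`-local and has Postnikov truncations
    (hloc : ∀ (X : C) (q : ℤ), IsCoprime q (p : ℤ) → IsIso (q • 𝟙 X))
    (hPost : HasPostnikov C)
    -- mod `p` homology and the Morava K-theories
    (H : C) (u : (𝟙_ C)⟦(0 : ℤ)⟧ ⟶ H) (hH : IsEilenbergMacLane p u) (K : ℕ → C)
    -- the periodicity, thick subcategory and nilpotence theorems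
    (hper : Periodicity C K H) (hthick : ThickTheorem C K) (hnil : NilpotenceTheorem C K H)
    -- existence of `K n`-localizations, and the theorem of Mahowald and Rezk on fp-spectra
    (hex : ∀ X : C, ∃ (L : C) (η : X ⟶ L), IsBousfieldLocalization (fun _ : Unit => K n) η)
    (hMR : MahowaldRezk C p K n)
    -- `B` is the `p`-completion of `BP⟨n⟩`: it is fp of fp-type at most `n`, mod `p` homology is
    -- built from it, and the local theorem of Lee and Pstragowski holds for it
    (B : C) (hB : IsFpTypeLE p K n B) (hHB : Thick (fun W => W = B) H)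
    (hLP : ∀ (B' : C) (η : B ⟶ B'), IsBousfieldLocalization (fun _ : Unit => K n) η →
      LocalTheorem K n B') :
    (∀ X : C, IsFpTypeLE p K n X → ∀ F : C, IsFiniteSpectrum F → TypeGE K n F →
      Thick (fun W => W = B) (X ⊗ F)) ∧
    (∀ (R X : C) [MonObj R] (a : X ⊗ R ⟶ X), (∀ j, j < n → IsZero (K j ⊗ R)) →
      (ρ_ X).inv ≫ X ◁ MonObj.one (X := R) ≫ a = 𝟙 X → IsFpTypeLE p K n X →
      Thick (fun W => W = B) X) ∧
    (∀ (X : C) [MonObj X], (∀ j, j < n → IsZero (K j ⊗ X)) → IsFpTypeLE p K n X →
      Thick (fun W => W = B) X) := by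
  have h1 : ∀ X : C, IsFpTypeLE p K n X → ∀ F : C, IsFiniteSpectrum F → TypeGE K n F →
      Thick (fun W => W = B) (X ⊗ F) := fun X hX F hF hF' =>
    torsion_part hn hper hthick hMR hPost hH hloc hex hB hHB hLP hX hF hF'
  have h2 : ∀ (R X : C) [MonObj R] (a : X ⊗ R ⟶ X), (∀ j, j < n → IsZero (K j ⊗ R)) →
      (ρ_ X).inv ≫ X ◁ MonObj.one (X := R) ≫ a = 𝟙 X → IsFpTypeLE p K n X →
      Thick (fun W => W = B) X := by
    intro R X _ a hR ha hX
    obtain ⟨F, hF, hF', i, r, hir⟩ := isTorsion_of_module hper hnil hR ha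
    exact Thick.retract i r hir (h1 X hX F hF hF')
  refine ⟨h1, h2, fun X _ hK hX => h2 X X MonObj.mul hK ?_ hX⟩
  rw [MonObj.mul_one, Iso.inv_hom_id]

end Vale.Agent.Results.P221.TorsionPart
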