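import Vale.Agent.P221.H929.Main

open CategoryTheory Limits Pretriangulated MonoidalCategory Vale.Agent.P261 Vale.Agent.P221

universe v u

namespace Vale.Agent.Results.P221.TorsionPartLocalForm

theorem result {C : Type u} [Category.{v} C] [Preadditive C] [HasZeroObject C] [HasShift C ℤ]
    [∀ n : ℤ, (shiftFunctor C n).Additive] [Pretriangulated C] [MonoidalCategory C]
    [BraidedCategory C] [TensorTriangulated C] (K : ℕ → C) (n : ℕ) (M B : C)
    (h : Facts K n M B) (hn : 1 ≤ n) :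
    (∀ X : C, FP K n X → ∃ k ≤ n, (Thick (fun W => W = B) X ↔ k = 0) ∧
      ∀ F : C, FiniteSp F → (Thick (fun W => W = B) (F ⊗ X) ↔ TypeGE K k F)) ∧
    (∀ (LB : C) (ℓ : B ⟶ LB), HighIso ℓ → FLocal K n LB →
      (∀ (X Y : C) (f : X ⟶ Y), FP K n X → HighIso f → FLocal K n Y →
        (Thick (fun W => W = B) X ↔ Thick (fun W => W = LB) Y)) ∧
      ((∀ X : C, FP K n X ↔ Thick (fun W => W = B) X) ↔
        (∀ Y : C, FLocal K n Y ∧ FinMod M Y ↔ Thick (fun W => W = LB) Y))) :=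
  ⟨fun _ hX => h.exists_type hn hX, fun _ _ hℓ hLB =>
    ⟨fun _ _ _ hX hf hY => h.thick_iff hX hf hY hℓ hLB, h.question_iff hℓ hLB⟩⟩

end Vale.Agent.Results.P221.TorsionPartLocalForm
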